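import Vale.Agent.P235.ST.H317.Defs2

/-! P235, (ST) O(1): row r10 (costs, `vert`, `hop_cost`). -/

namespace Vale.Agent.P235.STO.H913

open SimpleGraph

variable {V : Type}

theorem cost_nil {G : SimpleGraph V} (w : V → ℝ) {x : V} :
    cost w (Walk.nil : G.Walk x x) = 0 := rfl

theorem cost_cons {G : SimpleGraph V} (w : V → ℝ) {x y z : V} (h : G.Adj x y)
    (p : G.Walk y z) : cost w (Walk.cons h p) = |w x - w y| + cost w p := rfl

theorem cost_nonneg {G : SimpleGraph V} (w : V → ℝ) {x y : V} (p : G.Walk x y) :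
    0 ≤ cost w p := by
  induction p with
  | nil => exact le_rfl
  | cons h p ih =>
    rw [cost_cons]
    exact add_nonneg (abs_nonneg _) ih

theorem cost_append {G : SimpleGraph V} (w : V → ℝ) {x y z : V} (p : G.Walk x y)
    (q : G.Walk y z) : cost w (p.append q) = cost w p + cost w q := by
  induction p with
  | nil => rw [Walk.nil_append, cost_nil, zero_add]
  | cons h p ih => rw [Walk.cons_append, cost_cons, cost_cons, ih, add_assoc]

theorem cost_reverse {G : SimpleGraph V} (w : V → ℝ) {x y : V} (p : G.Walk x y) :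
    cost w p.reverse = cost w p := by
  induction p with
  | nil => rw [Walk.reverse_nil]
  | cons h p ih =>
    rw [Walk.reverse_cons, cost_append, ih, cost_cons, cost_cons, cost_nil, add_zero, add_comm,
      abs_sub_comm]

theorem abs_le_cost {G : SimpleGraph V} (w : V → ℝ) {x y : V} (p : G.Walk x y) :
    |w y - w x| ≤ cost w p := by
  induction p with
  | nil => rw [sub_self, abs_zero, cost_nil]
  | @cons a b c h p ih =>
    rw [cost_cons]
    have h1 : w c - w a = (w c - w b) + (w b - w a) := by ring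
    rw [h1]
    refine (abs_add_le _ _).trans ?_
    rw [abs_sub_comm (w b) (w a)]
    linarith

theorem cost_dropUntil {G : SimpleGraph V} [DecidableEq V] (w : V → ℝ) {x y z : V}
    (p : G.Walk x y) (hz : z ∈ p.support) : cost w (p.dropUntil z hz) ≤ cost w p := by
  have h1 := cost_append w (p.takeUntil z hz) (p.dropUntil z hz)
  rw [Walk.take_spec] at h1
  have := cost_nonneg w (p.takeUntil z hz)
  linarith

theorem cost_bypass {G : SimpleGraph V} [DecidableEq V] (w : V → ℝ) {x y : V}
    (p : G.Walk x y) : cost w p.bypass ≤ cost w p := by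
  induction p with
  | nil => exact le_rfl
  | @cons a b c h p ih =>
    rw [cost_cons]
    simp only [Walk.bypass]
    have h0 := abs_nonneg (w a - w b)
    split_ifs with hs
    · have := cost_dropUntil w p.bypass hs
      linarith
    · rw [cost_cons]
      linarith

variable (W : LWorld V)

/-- difference of the heights and of `w` -/
theorem diff_ge {ρ' w : V → ℝ} (hρ : W.Scale ρ') (hw : W.Inv ρ' w) (a b : V) :
    |(W.u b : ℝ) - W.u a| - 4 * e1 * ρ' a - 2 * e1 * (W.d a b / kap) ≤ |w b - w a| := by
  have he : (0 : ℝ) < e1 := by unfold e1; positivity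
  have h1 := hw.close a
  have h2 := hw.close b
  have h3 := (abs_le.1 (hρ.lip a b)).1
  have h4 : 2 * e1 * ρ' b ≤ 2 * e1 * (ρ' a + W.d a b / kap) :=
    mul_le_mul_of_nonneg_left (by linarith) (by linarith)
  have h5 : |(W.u b : ℝ) - W.u a| ≤ |w b - w a| + |w b - W.u b| + |w a - W.u a| := by
    have e : (W.u b : ℝ) - W.u a = (w b - w a) - (w b - W.u b) + (w a - W.u a) := by ring
    rw [e]
    refine (abs_add_le _ _).trans ?_
    have := abs_sub (w b - w a) (w b - W.u b)
    linarith
  linarith

theorem vert {ρ' w : V → ℝ} (hρ : W.Scale ρ') (hw : W.Inv ρ' w) {a b : V}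
    (g : W.G.Walk a b) :
    (31 / 32) * |(W.u b : ℝ) - W.u a| - 8 * e1 * ρ' a ≤ cost w g := by
  have h1 := diff_ge W hρ hw a b
  have h2 := abs_le_cost w g
  have h0 : 0 ≤ |(W.u b : ℝ) - W.u a| := abs_nonneg _
  have hr := hρ.nonneg a
  have hd : 0 ≤ W.d a b := by unfold LWorld.d; positivity
  have hl := hw.lb a b g
  generalize |(W.u b : ℝ) - W.u a| = A at *
  generalize |w b - w a| = B at *
  rcases le_or_gt (W.d a b) (2 ^ 10 * A) with h3 | h3
  · simp only [e1, kap] at *
    norm_num at *
    linarith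
  · rcases le_or_gt (C1 * d1 * ρ' a) (W.d a b) with h4 | h4
    · have h5 := hl h4
      have he : 0 ≤ 8 * e1 * ρ' a := by unfold e1; positivity
      have h6 : A ≤ c2 * W.d a b := by
        unfold c2
        linarith
      linarith
    · simp only [e1, kap, C1, d1] at *
      norm_num at *
      linarith

theorem hop_cost {ρ' w : V → ℝ} (hρ : W.Scale ρ') (hw : W.Inv ρ' w) {a b : V}
    (g : W.G.Walk a b) (hg : g.IsPath) (hin : ∀ z ∈ g.support, z ≠ a → z ≠ b → z ∉ W.N)
    (ha : ρ' a ≤ 4 / kap) : (4 / 5) * (g.length : ℝ) ≤ cost w g := by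
  classical
  rcases Nat.eq_zero_or_pos g.length with h0 | h0
  · rw [h0]
    simpa using cost_nonneg w g
  obtain ⟨m, hm, h1⟩ := W.hop a b g hg hin
  have h2 : |(W.u m : ℝ) - W.u a| + |(W.u b : ℝ) - W.u m| = (g.length : ℝ) := by
    have h3 : ((|W.u m - W.u a| + |W.u b - W.u m| : ℤ) : ℝ) = ((g.length : ℤ) : ℝ) := by
      rw [h1]
    push_cast at h3
    exact h3
  have h3 := cost_append w (g.takeUntil m hm) (g.dropUntil m hm)
  rw [Walk.take_spec] at h3
  have h4 := abs_le_cost w (g.takeUntil m hm)
  have h5 := abs_le_cost w (g.dropUntil m hm)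
  have h6 := diff_ge W hρ hw a m
  have h7 := diff_ge W hρ hw m b
  have hlen : (g.takeUntil m hm).length + (g.dropUntil m hm).length = g.length := by
    rw [← Walk.length_append, Walk.take_spec]
  have d1 : W.d a m ≤ (g.takeUntil m hm).length := by
    unfold LWorld.d
    exact_mod_cast SimpleGraph.dist_le _
  have d2 : W.d m b ≤ (g.dropUntil m hm).length := by
    unfold LWorld.d
    exact_mod_cast SimpleGraph.dist_le _
  have hlen' : ((g.takeUntil m hm).length : ℝ) + (g.dropUntil m hm).length = g.length := by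
    exact_mod_cast hlen
  have hp1 : (0 : ℝ) ≤ (g.takeUntil m hm).length := by positivity
  have hp2 : (0 : ℝ) ≤ (g.dropUntil m hm).length := by positivity
  have h8 : ρ' m ≤ ρ' a + W.d a m / kap := by
    have := (abs_le.1 (hρ.lip a m)).1
    linarith
  have hn : (1 : ℝ) ≤ g.length := by exact_mod_cast h0
  rw [h3]
  have hk : (4 : ℝ) / kap = 2 ^ 24 := by unfold kap; norm_num
  rw [hk] at ha
  have hk2 : ∀ x : ℝ, x / kap = 2 ^ 22 * x := fun x => by unfold kap; norm_num; ring
  rw [hk2] at h6 h7 h8
  have he : e1 = 1 / 2 ^ 120 := rfl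
  rw [he] at h6 h7
  linarith

end Vale.Agent.P235.STO.H913
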